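import Crest.Agent.X212.Tbs74.Defs
import Crest.Agent.X212.Gm56.Nck

/-!
# Row 212, TAUB-S (helper17): the canonical module

* `qc` : the projector onto pure spinors as a complex matrix;  `tm ρ u` : the Parseval frame of words;
* `canStmt : Tbs74.CanStmt`.
-/

set_option autoImplicit false
set_option linter.unusedSectionVars false

open Set Filter Topology Function Matrix Finset
open scoped ContDiff Manifold InnerProductSpace
open Crest.Agent.X212.Pj41 Crest.Agent.X212.Lab56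
open Crest.Agent.X212.Line51 (rl iL rl_mul rl_comp rl_injective)
open Crest.Agent.X212.Wz78 (spin omA)
open Crest.Agent.X212.Taub88 (Qt Qf Cx SD P8 pp pm tr)

noncomputable section

namespace Crest.Agent.X212.Can17

section real

variable {ι V : Type} [Fintype ι] [NormedAddCommGroup V] [InnerProductSpace ℝ V] [FiniteDimensional ℝ V]
  {P θ : ι → ι → ℝ} {o : ι → ι → ι → ι → ℝ} {p J : V →L[ℝ] V} {ρ : ι → V →L[ℝ] V}

theorem sum_S (h : Taub88.PC P o p J ρ) (hθ : Cx P θ) : ∑ a, ρ a * spin ρ θ * ρ a = 0 := by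
  have e : ∀ a, ρ a * spin ρ θ * ρ a = ρ a * ρ a * spin ρ θ + ∑ l, θ a l • (ρ a * ρ l) := fun a => by
    rw [mul_assoc, eq_add_of_sub_eq' (h.cl.spin_comm hθ.skew hθ.proj a), mul_add, mul_sum, mul_assoc]
    simp only [mul_smul_comm]
  simp only [e, sum_add_distrib, ← sum_mul, h.sum_sq, smul_mul_assoc, h.cl.p_spin]
  rw [spin]
  module

theorem sum_Q (h : Taub88.PC P o p J ρ) (hθ : Cx P θ) : ∑ a, ρ a * Qt o p J ρ θ * ρ a = (-2 : ℝ) • pm o p ρ := by
  have e : ∀ a, ρ a * Qt o p J ρ θ * ρ a =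
      (1 / 2 : ℝ) • (pm o p ρ * (ρ a * ρ a) - ρ a * spin ρ θ * ρ a * J) := fun a => by
    simp only [Qt, mul_smul_comm, smul_mul_assoc, mul_sub, sub_mul, h.ρ_pp, mul_assoc, h.Jρ]
  have k : pm o p ρ * p = pm o p ρ := by simp only [pm, smul_mul_assoc, add_mul, h.p_p, h.om_p]
  simp only [e]
  rw [← smul_sum, sum_sub_distrib, ← sum_mul, ← mul_sum, sum_S h hθ, h.sum_sq, mul_smul_comm, k, zero_mul]
  module

theorem sum_pm (h : Taub88.PC P o p J ρ) : ∑ a, ρ a * pm o p ρ * ρ a = (-4 : ℝ) • pp o p ρ := by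
  have k : pp o p ρ * p = pp o p ρ := by simp only [pp, smul_mul_assoc, sub_mul, h.p_p, h.om_p]
  simp only [h.ρ_pm, mul_assoc, ← mul_sum, h.sum_sq, mul_smul_comm, k]

theorem tr_Q8 (h : P8 P o p J ρ) (hθ : Cx P θ) : tr (Qt o p J ρ θ) = 2 := by
  have e : ∀ a b, tr (ρ a * ρ b * J) = tr (ρ b * ρ a * J) := fun a b => by
    rw [mul_assoc, Taub88.tr_comm, mul_assoc, h.Jρ, mul_assoc]
  have k : ∑ a, ∑ b, θ a b * tr (ρ a * ρ b * J) = -∑ a, ∑ b, θ a b * tr (ρ a * ρ b * J) := by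
    conv_lhs => rw [sum_comm]
    simp only [← sum_neg_distrib]
    exact sum_congr rfl fun a _ => sum_congr rfl fun b _ => by rw [hθ.skew b a, e b a, neg_mul]
  rw [Qt, Taub88.tr_smul, Taub88.tr_sub, h.tr_pp]
  simp only [spin, smul_mul_assoc, sum_mul, Taub88.tr_smul, Taub88.tr_sum]
  linarith

end real

variable {ι κ l n : Type} [Fintype ι] [Fintype κ] [Fintype l] [Fintype n] [DecidableEq ι] [DecidableEq κ]
  [DecidableEq l] [DecidableEq n]

/-- the projector onto pure spinors -/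
def qc (o : ι → ι → ι → ι → ℝ) (p : Matrix κ κ ℂ) (ρ : ι → Matrix κ κ ℂ) (θ : ι → ι → ℝ) : Matrix κ κ ℂ :=
  (1 / 2 : ℝ) • ((1 / 2 : ℝ) • (p - omA o ρ) - spin ρ θ * (Complex.I • 1))

/-- the columns `ρ a X` -/
def lm (ρ : ι → Matrix κ κ ℂ) (X : Matrix κ n ℂ) : Matrix κ (ι × n) ℂ := of fun i k => (ρ k.1 * X) i k.2

/-- the frame of words -/
def tm (ρ : ι → Matrix κ κ ℂ) (u : Matrix κ Unit ℂ) : Matrix κ (ι × Unit ⊕ ι × ι × Unit) ℂ :=
  fromCols (((1 + Complex.I) / 2) • lm ρ u) (((1 + Complex.I) / 4) • lm ρ (lm ρ u))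

section pt

variable {P θ : ι → ι → ℝ} {o : ι → ι → ι → ι → ℝ} {p : Matrix κ κ ℂ} {ρ : ι → Matrix κ κ ℂ}
  {p' : Matrix l l ℂ} {ρ' : ι → Matrix l l ℂ} {A : Matrix l κ ℂ} {u : Matrix κ Unit ℂ} {u' : Matrix l Unit ℂ}

theorem rl_qc : rl (qc o p ρ θ) = Qt o (rl p) (iL κ) (fun a => rl (ρ a)) θ := by
  simp only [qc, Qt, pp, omA, spin, iL, map_smul, map_sub, map_sum, rl_mul]

theorem un_qc (i : Un p ρ p' ρ' A) : A * qc o p ρ θ = qc o p' ρ' θ * A := by
  have e : ∀ a (X : Matrix κ κ ℂ), A * (ρ a * X) = ρ' a * (A * X) := fun a X => by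
    rw [← Matrix.mul_assoc, i.ρ, Matrix.mul_assoc]
  simp only [qc, omA, spin, Matrix.mul_smul, Matrix.smul_mul, Matrix.mul_sub, Matrix.sub_mul, Matrix.mul_sum,
    Matrix.sum_mul, Matrix.mul_assoc, Matrix.mul_one, e, i.ρ, i.iso.idem, i.iso.left]

theorem lm_ct (X : Matrix κ n ℂ) : lm ρ X * (lm ρ X)ᴴ = ∑ a, ρ a * (X * Xᴴ) * (ρ a)ᴴ := by
  ext i j
  simp only [← Matrix.mul_assoc]
  simp only [Matrix.mul_assoc _ Xᴴ, ← conjTranspose_mul]
  simp only [lm, Matrix.mul_apply (M := of _), Fintype.sum_prod_type, Matrix.sum_apply, of_apply,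
    conjTranspose_apply, Matrix.mul_apply (N := _ᴴ)]

theorem lm_un (i : ∀ a, A * ρ a = ρ' a * A) (X : Matrix κ n ℂ) : A * lm ρ X = lm ρ' (A * X) := by
  ext j k
  rw [lm, lm, of_apply, ← Matrix.mul_assoc, ← i, Matrix.mul_assoc]
  rfl

theorem tm_un (i : ∀ a, A * ρ a = ρ' a * A) : A * tm ρ u = tm ρ' (A * u) := by
  rw [tm, mul_fromCols, Matrix.mul_smul, Matrix.mul_smul, lm_un i, lm_un i, lm_un i, tm]

/-- orientation and complex structure at a point -/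
structure Pt (P : ι → ι → ℝ) (o : ι → ι → ι → ι → ℝ) (θ : ι → ι → ℝ) : Prop where
  p4 : P4 P
  fr : ∃ U, Wz78.On P o U
  cx : Cx P θ
  sd : SD o θ

variable (H : Pt P o θ) (h : PC P p ρ)
include H h

theorem p8 : P8 P o (rl p) (iL κ) fun a => rl (ρ a) :=
  have k := (C8.On.re (I := 𝓘(ℝ, ℝ)) (m := ⟨fun _ : ℝ => p, fun a _ => ρ a⟩) (P := fun _ => of P) (O := univ)
    ⟨fun _ _ => H.p4, fun _ _ => MSm.const _, fun _ _ _ => MSm.const _, fun _ _ => h⟩)
  ⟨⟨H.p4.pr, H.fr, k.cl 0 trivial, k.psym 0 trivial, fun a => k.ρsk a 0 trivial, k.Jsk, fun a => k.Jρ a 0 trivial,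
    k.Jp 0 trivial, (congrArg (· * rl p) k.Jsq).trans (neg_one_mul _)⟩, k.prk 0 trivial⟩

theorem prj_qc : Prj (qc o p ρ θ) ∧ (qc o p ρ θ).trace = 1 := by
  have k := p8 H h
  have e : (qc o p ρ θ)ᴴ = qc o p ρ θ := rl_injective (by
    rw [Line51.rl_ad, rl_qc]
    exact ad_eq fun w v => k.Q_s H.cx w v)
  refine ⟨⟨e, rl_injective (by rw [rl_mul, rl_qc, k.Q_Q H.cx H.sd])⟩, Complex.ext ?_ ?_⟩
  · have := (Line51.rl_trace _).symm.trans (rl_qc (o := o) (p := p) (ρ := ρ) (θ := θ) ▸ tr_Q8 k H.cx)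
    simpa using this
  · have := congrArg (fun X : Matrix κ κ ℂ => X.trace.im) e
    simp only [trace_conjTranspose, Complex.star_def, Complex.conj_im] at this
    rw [Complex.one_im]
    linarith

theorem p_qc : p * qc o p ρ θ = qc o p ρ θ := rl_injective (by rw [rl_mul, rl_qc, (p8 H h).p_Q])

theorem tm_ct (hu : PIso u 1 (qc o p ρ θ)) : tm ρ u * (tm ρ u)ᴴ = p := by
  have k := p8 H h
  have c : ∀ (r : ℝ) {m : Type} [Fintype m] (X : Matrix κ m ℂ),
      ((1 + Complex.I) / r) • X * (((1 + Complex.I) / r) • X)ᴴ = (2 / r ^ 2 : ℝ) • (X * Xᴴ) := fun r _ _ X => by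
    rw [conjTranspose_smul, Matrix.smul_mul, Matrix.mul_smul, smul_smul, ← Complex.coe_smul]
    congr 1
    simp only [Complex.star_def, map_div₀, map_add, map_one, Complex.conj_I, Complex.conj_ofReal]
    push_cast
    linear_combination (-1 / (r : ℂ) ^ 2) * Complex.I_mul_I
  rw [tm, conjTranspose_fromCols_eq_fromRows_conjTranspose, fromCols_mul_fromRows]
  refine (congrArg₂ (· + ·) (c 2 _) (c 4 _)).trans (rl_injective ?_)
  simp only [lm_ct, hu.tgt, h.sk, Matrix.mul_neg, Matrix.neg_mul, sum_neg_distrib, map_add, map_smul, map_neg,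
    map_sum, rl_mul, rl_qc, sum_Q k.toPC H.cx, mul_smul_comm, smul_mul_assoc, ← smul_sum, sum_pm k.toPC]
  refine Eq.trans ?_ (Taub88.PC.pp_add (o := o) (ρ := fun a => rl (ρ a)))
  module

theorem piso_tm (hu : PIso u 1 (qc o p ρ θ)) : PIso (tm ρ u)ᴴ p ((tm ρ u)ᴴ * tm ρ u) :=
  .of_prj h.prj.idem (by rw [conjTranspose_conjTranspose, tm_ct H h hu]) (by rw [conjTranspose_conjTranspose])

theorem piso_un (h' : PC P p' ρ') (i : Un p ρ p' ρ' A) (hu : PIso u 1 (qc o p ρ θ)) :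
    PIso (A * u) 1 (qc o p' ρ' θ) := by
  have e : p * u = u := by rw [← hu.left, ← Matrix.mul_assoc, p_qc H h]
  have k := (prj_qc H h').1
  refine ⟨?_, ?_, Matrix.mul_one _⟩
  · rw [conjTranspose_mul, Matrix.mul_assoc, ← Matrix.mul_assoc Aᴴ, i.iso.src, e, hu.src]
  · rw [conjTranspose_mul, Matrix.mul_assoc, ← Matrix.mul_assoc u, hu.tgt, ← Matrix.mul_assoc, un_qc i,
      Matrix.mul_assoc, i.iso.tgt]
    simpa only [conjTranspose_mul, k.herm, h'.prj.herm] using congrArg conjTranspose (p_qc H h')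

/-- the data in the frame of words do not depend on the module -/
theorem tm_eq (h' : PC P p' ρ') (hu : PIso u 1 (qc o p ρ θ)) (hu' : PIso u' 1 (qc o p' ρ' θ)) :
    (tm ρ' u')ᴴ * tm ρ' u' = (tm ρ u)ᴴ * tm ρ u ∧
      (∀ a, (tm ρ' u')ᴴ * ρ' a * tm ρ' u' = (tm ρ u)ᴴ * ρ a * tm ρ u) ∧ (tm ρ' u')ᴴ * u' = (tm ρ u)ᴴ * u := by
  obtain ⟨A, i⟩ := exists_un H.p4 h h'
  obtain ⟨e, c⟩ := piso_ratio (by simp) (piso_un H h h' i hu) hu'
  have j := i.smul ⟨_, mem_sphere_zero_iff_norm.2 c⟩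
  rw [← Matrix.smul_mul] at e
  generalize ((A * u)ᴴ * u').trace • A = B at e j
  have k : ∀ {m : Type} [Fintype m] (X : Matrix κ m ℂ), (B * tm ρ u)ᴴ * (B * X) = (tm ρ u)ᴴ * X := fun X => by
    rw [conjTranspose_mul, Matrix.mul_assoc, ← Matrix.mul_assoc Bᴴ, j.iso.src, ← Matrix.mul_assoc,
      (piso_tm H h hu).idem]
  rw [e, ← tm_un j.ρ]
  exact ⟨k _, fun a => by rw [Matrix.mul_assoc, ← Matrix.mul_assoc (ρ' a), ← j.ρ, Matrix.mul_assoc, k,
    Matrix.mul_assoc], k _⟩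

end pt

variable {E : Type} [NormedAddCommGroup E] [NormedSpace ℝ E] [FiniteDimensional ℝ E] [MeasurableSpace E] [BorelSpace E]
  {HM : Type} [TopologicalSpace HM] {I : ModelWithCorners ℝ E HM} [I.Boundaryless]
  {M : Type} [TopologicalSpace M] [ChartedSpace HM M] [IsManifold I ∞ M] [MeasurableSpace M]
  {lam : Type} [Fintype lam] {B : An.Base M ι lam} {θ : ι → ι → M → ℝ} {x : M}

theorem msm_lm {ρ : ι → M → Matrix κ κ ℂ} {X : M → Matrix κ n ℂ} (h : ∀ a, MSm I (ρ a) x) (hX : MSm I X x) :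
    MSm I (fun y => lm (fun a => ρ a y) (X y)) x := fun i k => (h k.1).mul hX i k.2

theorem msm_tm {ρ : ι → M → Matrix κ κ ℂ} {u : M → Matrix κ Unit ℂ} (h : ∀ a, MSm I (ρ a) x) (hu : MSm I u x) :
    MSm I (fun y => tm (fun a => ρ a y) (u y)) x :=
  (MSm.smul contMDiffAt_const (msm_lm h hu)).fromCols (MSm.smul contMDiffAt_const (msm_lm h (msm_lm h hu)))

/-- the metric -/
abbrev PB (B : An.Base M ι lam) (x : M) : Matrix ι ι ℝ := of fun a b => B.P a b x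

/-- the line of pure spinors -/
abbrev qB (B : An.Base M ι lam) (θ : ι → ι → M → ℝ) (m : C8 M ι κ) (x : M) : Matrix κ κ ℂ :=
  qc (fun a b c d => B.o a b c d x) (m.p x) (m.r x) fun a b => θ a b x

variable (hB : B.OK I) (hθ : Taub88.Th I B θ)
include hB hθ

theorem ptB (x : M) : Pt (PB B x) (fun a b c d => B.o a b c d x) fun a b => θ a b x :=
  ⟨⟨hB.pr x, hB.rk x⟩, Wz78.b_on hB x, hθ.cx x, hθ.sd x⟩

/-- local modules with unit pure spinors -/
theorem ex_loc (x : M) : ∃ (V : Set M) (m : C8 M ι (Fin 4)) (u : M → Matrix (Fin 4) Unit ℂ), IsOpen V ∧ x ∈ V ∧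
    m.On I (PB B) V ∧ Line51.Uni I (fun _ => 1) (qB B θ m) u V := by
  obtain ⟨U, hU⟩ := Wz78.b_on hB x
  obtain ⟨V, R, h1, h2, -, -, h3⟩ := exists_iso_near (I := I) (p := PB B) (q := fun _ => 1) isOpen_univ
    (fun y _ => ⟨fun a b => hB.sP a b y, by ext a b; exact (hB.pr y).symm b a, by ext a b; exact (hB.pr y).idem a b⟩)
    (fun _ _ => ⟨MSm.const _, Prj.one⟩) (mem_univ x) (a₀ := of U)
    (.of_prj (by ext a b; exact (hB.pr x).idem a b) (by ext a b; exact hU.pr a b)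
      (by ext i j; exact (hU.on i j).trans (one_apply).symm))
  have k : C8.On I (PB B) (C8.rot ⟨fun _ => 1, fun a _ => gam a⟩ R) V :=
    C8.On.rot (P := fun _ => 1) ⟨fun _ _ => ⟨⟨fun a b => by simp [one_apply, eq_comm],
      fun a b => congrFun (congrFun (Matrix.mul_one 1) a) b⟩, by simp⟩, fun _ _ => MSm.const _,
      fun _ _ _ => MSm.const _, fun _ _ => pc_gam⟩ (fun y hy => (h3 y hy).1) fun y hy => (h3 y hy).2
  have q : LOn I (qB B θ _) V := ⟨fun y hy => MSm.rsmul contMDiffAt_const ((MSm.rsmul contMDiffAt_const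
    ((k.sp y hy).sub (MSm.rsmul contMDiffAt_const (MSm.sum fun a _ => MSm.sum fun b _ => MSm.sum fun c _ =>
      MSm.sum fun d _ => MSm.rsmul (hB.so a b c d y) ((((k.sρ a y hy).mul (k.sρ b y hy)).mul (k.sρ c y hy)).mul
        (k.sρ d y hy)))))).sub ((MSm.rsmul contMDiffAt_const (MSm.sum fun a _ => MSm.sum fun b _ =>
          MSm.rsmul (hθ.sm a b y) ((k.sρ a y hy).mul (k.sρ b y hy)))).mul (MSm.const _))),
    fun y hy => (prj_qc (ptB hB hθ y) (k.pc y hy)).1, fun y hy => (prj_qc (ptB hB hθ y) (k.pc y hy)).2⟩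
  obtain ⟨W, s, a, b, c, d⟩ := q.on.exists_fr h1 h2
  exact ⟨W, _, s, a, b, k.mono c, d.toUni⟩

/-- the canonical module in the ambient space of words -/
theorem ex_can : ∃ (m : C8 M ι (ι × Unit ⊕ ι × ι × Unit)) (u : M → Matrix (ι × Unit ⊕ ι × ι × Unit) Unit ℂ),
    m.On I (PB B) univ ∧ Line51.Uni I (fun _ => 1) (qB B θ m) u univ := by
  choose V m u h1 h2 h3 h4 using ex_loc hB hθ
  let T := fun x y => tm ((m x).r y) (u x y)
  have e := fun x => eventually_of_mem ((h1 x).mem_nhds (h2 x)) fun y hy =>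
    tm_eq (ptB hB hθ y) ((h3 x).pc y hy) ((h3 y).pc y (h2 y)) ((h4 x).iso y hy) ((h4 y).iso y (h2 y))
  have s : ∀ x, MSm I (T x) x := fun x => msm_tm (fun a => (h3 x).sρ a x (h2 x)) ((h4 x).sm x (h2 x))
  have k := fun x => ((h3 x).pc x (h2 x)).push (piso_tm (ptB hB hθ x) ((h3 x).pc x (h2 x)) ((h4 x).iso x (h2 x)))
  simp only [conjTranspose_conjTranspose] at k
  exact ⟨⟨fun x => (T x x)ᴴ * T x x, fun a x => (T x x)ᴴ * (m x).ρ a x * T x x⟩, fun x => (T x x)ᴴ * u x x,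
    ⟨fun x _ => (ptB hB hθ x).p4, fun x _ => ((s x).ct.mul (s x)).congr ((e x).mono fun _ c => c.1),
      fun a x _ => (((s x).ct.mul ((h3 x).sρ a x (h2 x))).mul (s x)).congr ((e x).mono fun _ c => c.2.1 a),
      fun x _ => (k x).1⟩, fun x _ => ((s x).ct.mul ((h4 x).sm x (h2 x))).congr ((e x).mono fun _ c => c.2.2),
    fun x _ => piso_un (ptB hB hθ x) ((h3 x).pc x (h2 x)) (k x).1 (k x).2 ((h4 x).iso x (h2 x))⟩

omit hB hθ

/-- **T-CAN** -/
theorem canStmt : Tbs74.CanStmt := by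
  intro X _ ι lam l _ _ _ _ _ B θ hl hB hθ
  obtain ⟨m, u, h1, h2⟩ := ex_can hB hθ
  obtain ⟨g, w, h3, h4⟩ := Gm56.exists_small X.dim.le hl h1
  have k := fun x => piso_un (ptB hB hθ x) (h1.pc x trivial) (h3.pc x trivial) (h4.un x trivial) (h2.iso x trivial)
  let e : An.Eu (Unit ⊕ Unit) := EuclideanSpace.single (.inl ()) 1
  refine ⟨g, fun x => rl (w x * u x) e, h3,
    fun x => (Line51.fsm_rl ((h4.sm x trivial).mul (h2.sm x trivial))).clm_apply contMDiffAt_const,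
    fun x => ?_, fun x => ?_⟩
  · rw [norm_eq_sqrt_real_inner, ← inner_ad_right, ← Line51.rl_ad, ← ContinuousLinearMap.comp_apply, ← rl_comp,
      (k x).src, Line51.rl_one]
    simp [e]
  · refine (congrArg (fun T : An.En (l ⊕ l) => T (rl (w x * u x) e)) rl_qc.symm).trans ?_
    beta_reduce
    rw [← ContinuousLinearMap.comp_apply, ← rl_comp, (k x).left]

end Crest.Agent.X212.Can17
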